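import Mathlib

namespace Vale.Agent.P318

variable {V : Type} [Fintype V] [DecidableEq V]

/-- negative-type semimetric: squared Euclidean distances satisfying all triangle inequalities -/
def NegType (d : V → V → ℝ) : Prop :=
  (∃ x : V → EuclideanSpace ℝ V, ∀ i j, d i j = ‖x i - x j‖ ^ 2) ∧
    ∀ i j k, d i k ≤ d i j + d j k

/-- value of the uniform sparsest cut instance with capacities `c` -/
noncomputable def Phi (c : V → V → ℝ) : ℝ :=
  sInf {r | ∃ S : Finset V, S.Nonempty ∧ S ≠ Finset.univ ∧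
    r = (∑ i ∈ S, ∑ j ∈ Sᶜ, c i j) / ((S.card : ℝ) * ((Fintype.card V : ℝ) - S.card))}

/-- value of the Goemans-Linial relaxation; a sum over unordered pairs is half the sum over
ordered pairs -/
noncomputable def gl (c : V → V → ℝ) : ℝ :=
  sInf {r | ∃ d : V → V → ℝ, NegType d ∧ (∑ i, ∑ j, d i j) / 2 = 1 ∧
    r = (∑ i, ∑ j, c i j * d i j) / 2}

end Vale.Agent.P318
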