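import Mathlib

namespace Vale.Agent.P318

open Finset

theorem four_parseval {A : Type} [AddCommGroup A] [Fintype A] [DecidableEq A] (g : A → ℝ) :
    ∑ χ : AddChar A ℂ, ‖∑ y, (g y : ℂ) * χ y‖ ^ 2 = (Fintype.card A : ℝ) * ∑ y, g y ^ 2 := by
  have h1 : ∀ χ : AddChar A ℂ, ((‖∑ y, (g y : ℂ) * χ y‖ ^ 2 : ℝ) : ℂ) =
      ∑ y, ∑ z, (g y : ℂ) * (g z : ℂ) * χ (y - z) := by
    intro χ
    rw [Complex.ofReal_pow, ← Complex.mul_conj', map_sum, Finset.sum_mul_sum]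
    refine Finset.sum_congr rfl fun y _ => Finset.sum_congr rfl fun z _ => ?_
    rw [map_mul, Complex.conj_ofReal, sub_eq_add_neg, AddChar.map_add_eq_mul,
      AddChar.map_neg_eq_conj]
    ring
  apply Complex.ofReal_injective
  rw [Complex.ofReal_sum]
  simp only [h1]
  rw [Finset.sum_comm]
  push_cast
  rw [Finset.mul_sum]
  refine Finset.sum_congr rfl fun y _ => ?_
  rw [Finset.sum_comm]
  simp only [← Finset.mul_sum, AddChar.sum_apply_eq_ite, sub_eq_zero]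
  rw [Finset.sum_eq_single y]
  · rw [if_pos rfl]; ring
  · intro z _ hz
    rw [if_neg (Ne.symm hz), mul_zero]
  · intro h
    exact absurd (mem_univ y) h

theorem four_shift {A : Type} [AddCommGroup A] [Fintype A] [DecidableEq A] (f : A → ℝ) (s : A)
    (χ : AddChar A ℂ) :
    ‖∑ y, ((f (y + s) - f y : ℝ) : ℂ) * χ y‖ = ‖∑ y, (f y : ℂ) * χ y‖ * ‖χ s - 1‖ := by
  have h1 : ∑ y, (f (y + s) : ℂ) * χ y = (∑ y, (f y : ℂ) * χ y) * χ (-s) := by
    rw [Finset.sum_mul]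
    refine Fintype.sum_equiv (Equiv.addRight s) _ _ fun y => ?_
    rw [Equiv.coe_addRight, mul_assoc, ← AddChar.map_add_eq_mul, add_neg_cancel_right]
  have h2 : ∑ y, ((f (y + s) - f y : ℝ) : ℂ) * χ y = (∑ y, (f y : ℂ) * χ y) * (χ (-s) - 1) := by
    rw [mul_sub, mul_one, ← h1, ← Finset.sum_sub_distrib]
    refine Finset.sum_congr rfl fun y _ => ?_
    push_cast
    ring
  have h3 : χ (-s) - 1 = (starRingEnd ℂ) (χ s - 1) := by
    rw [AddChar.map_neg_eq_conj, map_sub, map_one]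
  rw [h2, norm_mul, h3, Complex.norm_conj]

theorem four {A : Type} [AddCommGroup A] [Fintype A] [DecidableEq A]
    (x : A → EuclideanSpace ℝ A) : ∃ w : AddChar A ℂ → ℝ, (∀ χ, 0 ≤ w χ) ∧
      ∀ s, ∑ y, ‖x (y + s) - x y‖ ^ 2 = ∑ χ, w χ * ‖χ s - 1‖ ^ 2 := by
  have hn : (0 : ℝ) < Fintype.card A := by exact_mod_cast Fintype.card_pos
  refine ⟨fun χ => (Fintype.card A : ℝ)⁻¹ * ∑ v, ‖∑ y, (x y v : ℂ) * χ y‖ ^ 2,
    fun χ => by positivity, fun s => ?_⟩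
  have h1 : ∀ v : A, ∑ y, (x (y + s) v - x y v) ^ 2 =
      ∑ χ : AddChar A ℂ, (Fintype.card A : ℝ)⁻¹ * ‖∑ y, (x y v : ℂ) * χ y‖ ^ 2 * ‖χ s - 1‖ ^ 2 := by
    intro v
    have h := four_parseval fun y => x (y + s) v - x y v
    simp only [four_shift (fun y => x y v) s, mul_pow] at h
    simp only [mul_assoc]
    rw [← Finset.mul_sum, h, ← mul_assoc, inv_mul_cancel₀ hn.ne', one_mul]
  simp only [EuclideanSpace.real_norm_sq_eq, PiLp.sub_apply]
  rw [Finset.sum_comm]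
  simp only [h1]
  rw [Finset.sum_comm]
  refine Finset.sum_congr rfl fun χ _ => ?_
  rw [Finset.mul_sum, Finset.sum_mul]

end Vale.Agent.P318
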