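import Mathlib

namespace Vale.Agent.P318

open Finset

theorem gen_aux {A : Type} [AddCommGroup A] [DecidableEq A] (u : A → ℝ)
    (hu : ∀ s, 0 ≤ u s) (T : Finset A) : ∃ Λ S : Finset A, Λ ⊆ T ∧ 2 ^ Λ.card ≤ S.card ∧
      ∀ ρ : A → ℝ, (∀ s, 0 ≤ ρ s) → ρ 0 = 0 → (∀ s, ρ (-s) = ρ s) →
        (∀ s t, ρ (s + t) ≤ ρ s + ρ t) → (∀ x ∈ S, ρ x ≤ ∑ l ∈ Λ, ρ l) ∧
          ∀ M : ℝ, 0 ≤ M → (∀ l ∈ Λ, ρ l ≤ M * u l) →
            ∀ s ∈ T, ρ s ≤ 2 * (Λ.card : ℝ) * M * u s := by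
  induction T using Finset.induction_on_max_value u with
  | empty =>
    refine ⟨∅, {0}, Subset.refl _, by simp, fun ρ _ h0 _ _ => ⟨fun x hx => ?_, ?_⟩⟩
    · rw [mem_singleton.1 hx, h0, sum_empty]
    · intro M _ _ s hs
      simp at hs
  | insert a T ha hmax ih =>
    obtain ⟨Λ, S, hΛ, hc, H⟩ := ih
    by_cases hxy : ∃ x ∈ S, ∃ y ∈ S, a = x - y
    · obtain ⟨x, hx, y, hy, rfl⟩ := hxy
      refine ⟨Λ, S, hΛ.trans (subset_insert _ _), hc, fun ρ h1 h2 h3 h4 => ?_⟩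
      obtain ⟨H1, H2⟩ := H ρ h1 h2 h3 h4
      refine ⟨H1, fun M hM hl s hs => ?_⟩
      rcases mem_insert.1 hs with rfl | hs
      · have e1 : ρ (x - y) ≤ ρ x + ρ y := by
          rw [sub_eq_add_neg, ← h3 y]
          exact h4 _ _
        have e2 : ∑ l ∈ Λ, ρ l ≤ Λ.card • (M * u (x - y)) :=
          sum_le_card_nsmul _ _ _ fun l hl' =>
            (hl l hl').trans (mul_le_mul_of_nonneg_left (hmax l (hΛ hl')) hM)
        rw [nsmul_eq_mul] at e2
        have e3 := H1 x hx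
        have e4 := H1 y hy
        linarith
      · exact H2 M hM hl s hs
    · have haΛ : a ∉ Λ := fun h => ha (hΛ h)
      have hdisj : Disjoint S (S.image (· + a)) := by
        rw [disjoint_left]
        intro x hx hx'
        obtain ⟨y, hy, rfl⟩ := mem_image.1 hx'
        exact hxy ⟨y + a, hx, y, hy, by abel⟩
      refine ⟨insert a Λ, S ∪ S.image (· + a), insert_subset_insert _ hΛ, ?_,
        fun ρ h1 h2 h3 h4 => ?_⟩
      · rw [card_insert_of_notMem haΛ, card_union_of_disjoint hdisj,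
          card_image_of_injective _ (add_left_injective a), pow_succ]
        omega
      obtain ⟨H1, H2⟩ := H ρ h1 h2 h3 h4
      refine ⟨fun x hx => ?_, fun M hM hl s hs => ?_⟩
      · rw [sum_insert haΛ]
        rcases mem_union.1 hx with hx | hx
        · have := H1 x hx
          have := h1 a
          linarith
        · obtain ⟨y, hy, rfl⟩ := mem_image.1 hx
          have := H1 y hy
          have := h4 y a
          linarith
      · rw [card_insert_of_notMem haΛ]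
        push_cast
        have e0 : 0 ≤ M * u s := mul_nonneg hM (hu s)
        have e1 : 0 ≤ (Λ.card : ℝ) * (M * u s) := mul_nonneg (Nat.cast_nonneg _) e0
        rcases mem_insert.1 hs with rfl | hs
        · have := hl s (mem_insert_self _ _)
          linarith
        · have := H2 M hM (fun l hl' => hl l (mem_insert_of_mem hl')) s hs
          linarith

theorem gen {A : Type} [AddCommGroup A] [Fintype A] [DecidableEq A] (u : A → ℝ)
    (hu : ∀ s, 0 ≤ u s) : ∃ Λ : Finset A, 2 ^ Λ.card ≤ Fintype.card A ∧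
      ∀ ρ : A → ℝ, (∀ s, 0 ≤ ρ s) → ρ 0 = 0 → (∀ s, ρ (-s) = ρ s) →
        (∀ s t, ρ (s + t) ≤ ρ s + ρ t) → ∀ M : ℝ, 0 ≤ M → (∀ l ∈ Λ, ρ l ≤ M * u l) →
        ∀ s, ρ s ≤ 2 * (Λ.card : ℝ) * M * u s := by
  obtain ⟨Λ, S, -, hc, H⟩ := gen_aux u hu univ
  exact ⟨Λ, hc.trans (card_le_univ S), fun ρ h1 h2 h3 h4 M hM hl s =>
    (H ρ h1 h2 h3 h4).2 M hM hl s (mem_univ s)⟩

end Vale.Agent.P318
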