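import Vale.Agent.P318.Defs

namespace Vale.Agent.P318

open Finset

theorem num (k n : ℕ) (h : 2 ^ k ≤ n) : ∃ L : ℕ, 256 * ((k : ℝ) + 1) ^ 2 ≤ 2 ^ L ∧
    (L : ℝ) + 5 ≤ 30 * Real.log (Real.log n + 2) := by
  set m := Nat.log 2 (k + 1) with hm
  have h1 : k + 1 < 2 ^ (m + 1) := Nat.lt_pow_succ_log_self (by norm_num) _
  have h2 : 2 ^ m ≤ k + 1 := Nat.pow_log_le_self 2 (by omega)
  have h1' : (k : ℝ) + 1 ≤ 2 ^ (m + 1) := by exact_mod_cast h1.le
  have h2' : (2 : ℝ) ^ m ≤ (k : ℝ) + 1 := by exact_mod_cast h2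
  have h' : (2 : ℝ) ^ k ≤ n := by exact_mod_cast h
  have hl2 : (0.69 : ℝ) < Real.log 2 := lt_trans (by norm_num) Real.log_two_gt_d9
  have hk0 : (0 : ℝ) ≤ k := Nat.cast_nonneg k
  have hm0 : (0 : ℝ) ≤ m := Nat.cast_nonneg m
  refine ⟨8 + 2 * (m + 1), ?_, ?_⟩
  · have e : (2 : ℝ) ^ (8 + 2 * (m + 1)) = 256 * (2 ^ (m + 1)) ^ 2 := by
      rw [pow_add, mul_comm 2 (m + 1), pow_mul]; norm_num
    rw [e]
    have : ((k : ℝ) + 1) ^ 2 ≤ (2 ^ (m + 1)) ^ 2 := by
      apply pow_le_pow_left₀ (by positivity) h1'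
    linarith
  · have hk : (k : ℝ) * Real.log 2 ≤ Real.log n := by
      rw [← Real.log_pow]
      exact Real.log_le_log (by positivity) h'
    have hn0 : 0 ≤ Real.log n := le_trans (by positivity) hk
    have hk2 : (k : ℝ) + 1 ≤ 2 * (Real.log n + 2) := by nlinarith
    have hl : Real.log 2 ≤ Real.log (Real.log n + 2) :=
      Real.log_le_log (by norm_num) (by linarith)
    have hm2 : (m : ℝ) * Real.log 2 ≤ Real.log 2 + Real.log (Real.log n + 2) := by
      rw [← Real.log_pow, ← Real.log_mul (by norm_num) (by linarith)]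
      exact Real.log_le_log (by positivity) (h2'.trans hk2)
    push_cast
    nlinarith

theorem exists_neg {V : Type} [Fintype V] [DecidableEq V] (h : 2 ≤ Fintype.card V) :
    ∃ d : V → V → ℝ, NegType d ∧ (∑ i, ∑ j, d i j) / 2 = 1 := by
  obtain ⟨p⟩ : Nonempty V := Fintype.card_pos_iff.mp (by omega)
  have hn : (2 : ℝ) ≤ Fintype.card V := by exact_mod_cast h
  set a : ℝ := 1 / ((Fintype.card V : ℝ) - 1) with ha
  have ha0 : 0 ≤ a := by
    rw [ha]; apply div_nonneg <;> linarith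
  refine ⟨fun i j => if i = p then (if j = p then 0 else a) else (if j = p then a else 0),
    ⟨⟨fun i => if i = p then EuclideanSpace.single p (Real.sqrt a) else 0, ?_⟩, ?_⟩, ?_⟩
  · intro i j
    by_cases hi : i = p <;> by_cases hj : j = p <;>
      simp [hi, hj, Real.sq_sqrt ha0]
  · intro i j k
    by_cases hi : i = p <;> by_cases hj : j = p <;> by_cases hk : k = p <;>
      simp [hi, hj, hk, ha0]
  · have e1 : ∑ j : V, (if j = p then (0 : ℝ) else a) = ((Fintype.card V : ℝ) - 1) * a := by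
      have : ∀ j : V, (if j = p then (0 : ℝ) else a) = a - (if j = p then a else 0) := by
        intro j; split_ifs <;> simp
      simp only [this, sum_sub_distrib, sum_const, card_univ, nsmul_eq_mul, sum_ite_eq',
        mem_univ, if_true]
      ring
    have e2 : ∑ j : V, (if j = p then a else (0 : ℝ)) = a := by simp
    have e3 : ∀ i : V, ∑ j : V, (if i = p then (if j = p then (0 : ℝ) else a)
        else (if j = p then a else 0)) =
        a + (if i = p then ((Fintype.card V : ℝ) - 1) * a - a else 0) := by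
      intro i
      by_cases hi : i = p
      · simp only [hi, if_true, e1]; ring
      · simp only [hi, if_false, e2]; ring
    simp only [e3, sum_add_distrib, sum_const, card_univ, nsmul_eq_mul, sum_ite_eq',
      mem_univ, if_true]
    have : ((Fintype.card V : ℝ) - 1) ≠ 0 := by linarith
    rw [ha]
    field_simp
    ring

theorem phi_spec {V : Type} [Fintype V] [DecidableEq V] (c : V → V → ℝ) (hc : ∀ i j, 0 ≤ c i j) :
    0 ≤ Phi c ∧ ∀ S : Finset V, Phi c * ((S.card : ℝ) * ((Fintype.card V : ℝ) - S.card)) ≤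
      ∑ i ∈ S, ∑ j ∈ Sᶜ, c i j := by
  have hnum : ∀ S : Finset V, 0 ≤ ∑ i ∈ S, ∑ j ∈ Sᶜ, c i j := fun S =>
    sum_nonneg fun i _ => sum_nonneg fun j _ => hc i j
  have hden : ∀ S : Finset V, (0 : ℝ) ≤ (S.card : ℝ) * ((Fintype.card V : ℝ) - S.card) := by
    intro S
    have : (S.card : ℝ) ≤ Fintype.card V := by exact_mod_cast card_le_univ S
    exact mul_nonneg (Nat.cast_nonneg _) (by linarith)
  have hlb : ∀ r ∈ {r : ℝ | ∃ S : Finset V, S.Nonempty ∧ S ≠ Finset.univ ∧
      r = (∑ i ∈ S, ∑ j ∈ Sᶜ, c i j) / ((S.card : ℝ) * ((Fintype.card V : ℝ) - S.card))},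
      0 ≤ r := by
    rintro r ⟨S, -, -, rfl⟩
    exact div_nonneg (hnum S) (hden S)
  refine ⟨Real.sInf_nonneg hlb, fun S => ?_⟩
  rcases (hden S).eq_or_lt with h0 | hpos
  · rw [← h0, mul_zero]; exact hnum S
  · have hS : S.Nonempty := by
      rw [nonempty_iff_ne_empty]
      rintro rfl
      simp at hpos
    have hS' : S ≠ Finset.univ := by
      rintro rfl
      simp at hpos
    rw [← le_div_iff₀ hpos]
    exact csInf_le ⟨0, hlb⟩ ⟨S, hS, hS', rfl⟩

end Vale.Agent.P318
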