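import Vale.Agent.P318.Sweep

namespace Vale.Agent.P318

open Finset

theorem round {A : Type} [AddCommGroup A] [Fintype A] [DecidableEq A] (c : A → A → ℝ)
    (hc : ∀ i j, 0 ≤ c i j) (hinv : ∀ a i j, c (i + a) (j + a) = c i j) (φ : ℝ) (hφ0 : 0 ≤ φ)
    (hφ : ∀ S : Finset A, φ * ((S.card : ℝ) * ((Fintype.card A : ℝ) - S.card)) ≤
      ∑ i ∈ S, ∑ j ∈ Sᶜ, c i j) (χ : AddChar A ℂ) (hχ : χ ≠ 0) :
    φ * (Fintype.card A : ℝ) ≤ 4 * ∑ s, c s 0 * ‖χ s - 1‖ := by
  have hn : (0 : ℝ) < Fintype.card A := by exact_mod_cast Fintype.card_pos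
  have h1 := sweep c hc φ hφ fun i => (χ i).re
  have h2 := sweep c hc φ hφ fun i => (χ i).im
  have hd : ∀ s j, ‖χ (s + j) - χ j‖ = ‖χ s - 1‖ := by
    intro s j
    rw [AddChar.map_add_eq_mul, ← sub_one_mul, norm_mul, AddChar.norm_apply, mul_one]
  have hre : ∀ F : A → A → ℝ, ∑ i, ∑ j, F i j = ∑ j, ∑ s, F (s + j) j := by
    intro F
    rw [Finset.sum_comm]
    exact Finset.sum_congr rfl fun j _ => (Equiv.sum_comp (Equiv.addRight j) fun i => F i j).symm
  have hs : (Fintype.card A : ℝ) ≤ ∑ s, ‖χ s - 1‖ := by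
    have h0 : ∑ s, (χ s).re = 0 := by
      rw [← Complex.re_sum, AddChar.sum_eq_zero_iff_ne_zero.2 hχ, Complex.zero_re]
    have h3 : ∑ s, (1 - (χ s).re) ≤ ∑ s, ‖χ s - 1‖ := Finset.sum_le_sum fun s _ => by
      have := Complex.abs_re_le_norm (χ s - 1)
      have h4 := neg_abs_le (χ s - 1).re
      simp only [Complex.sub_re, Complex.one_re] at this h4
      linarith
    rw [Finset.sum_sub_distrib, h0] at h3
    simpa using h3
  have h5 : (Fintype.card A : ℝ) * Fintype.card A ≤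
      ∑ i, ∑ j, |(χ i).re - (χ j).re| + ∑ i, ∑ j, |(χ i).im - (χ j).im| := by
    calc (Fintype.card A : ℝ) * Fintype.card A ≤ Fintype.card A * ∑ s, ‖χ s - 1‖ :=
          mul_le_mul_of_nonneg_left hs hn.le
      _ = ∑ i, ∑ j, ‖χ i - χ j‖ := by
          rw [hre]
          simp only [hd, Finset.sum_const, Finset.card_univ, nsmul_eq_mul]
      _ ≤ _ := by
          rw [← Finset.sum_add_distrib]
          refine Finset.sum_le_sum fun i _ => ?_
          rw [← Finset.sum_add_distrib]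
          refine Finset.sum_le_sum fun j _ => ?_
          simpa using Complex.norm_le_abs_re_add_abs_im (χ i - χ j)
  have h6 : ∑ i, ∑ j, c i j * ‖χ i - χ j‖ = Fintype.card A * ∑ s, c s 0 * ‖χ s - 1‖ := by
    rw [hre]
    have : ∀ s j, c (s + j) j = c s 0 := fun s j => by
      have := hinv j s 0
      rwa [zero_add] at this
    simp only [hd, this, Finset.sum_const, Finset.card_univ, nsmul_eq_mul]
  have h7 : ∑ i, ∑ j, c i j * |(χ i).re - (χ j).re| ≤ ∑ i, ∑ j, c i j * ‖χ i - χ j‖ :=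
    Finset.sum_le_sum fun i _ => Finset.sum_le_sum fun j _ =>
      mul_le_mul_of_nonneg_left (by simpa using Complex.abs_re_le_norm (χ i - χ j)) (hc i j)
  have h8 : ∑ i, ∑ j, c i j * |(χ i).im - (χ j).im| ≤ ∑ i, ∑ j, c i j * ‖χ i - χ j‖ :=
    Finset.sum_le_sum fun i _ => Finset.sum_le_sum fun j _ =>
      mul_le_mul_of_nonneg_left (by simpa using Complex.abs_im_le_norm (χ i - χ j)) (hc i j)
  have h9 := mul_le_mul_of_nonneg_left h5 hφ0
  refine le_of_mul_le_mul_left ?_ hn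
  nlinarith

end Vale.Agent.P318
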