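import Vale.Agent.P318.Seq

namespace Vale.Agent.P318

open Finset

theorem trunc {X : Type} [Fintype X] (w : X → ℝ) (hw : ∀ x, 0 ≤ w x) (hw1 : ∑ x, w x = 1)
    (a : X → ℕ → ℝ) (ha : ∀ x, Dbl (a x)) (u : ℝ) (hu : 0 ≤ u)
    (h : ∀ j, ∑ x, w x * a x j ^ 2 ≤ 2 ^ j * u) (L : ℕ) (G : Finset X)
    (hG : ∀ x ∈ G, a x 0 ≤ 2 ^ L * u) :
    ∑ x ∈ G, w x * a x 0 ≤ ((L : ℝ) + 5) * u := by
  classical
  rcases hu.eq_or_lt with h0 | hu0
  · subst h0
    rw [mul_zero]
    refine Finset.sum_nonpos fun x hx => ?_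
    have := hG x hx
    rw [mul_zero] at this
    exact mul_nonpos_of_nonneg_of_nonpos (hw x) this
  have hex : ∃ J : ℕ, 1 ≤ 2 ^ J * u := by
    obtain ⟨J, hJ⟩ := pow_unbounded_of_one_lt (1 / u) (one_lt_two (α := ℝ))
    rw [div_lt_iff₀ hu0] at hJ
    exact ⟨J, hJ.le⟩
  set J := Nat.find hex with hJ
  have hJ1 : 1 ≤ 2 ^ J * u := Nat.find_spec hex
  set I := J - (L + 1) with hI
  have hpt : ∀ x ∈ G, a x 0 ≤
      2 * (∑ j ∈ Ico I J, a x j ^ 2 / 2 ^ (j + 1) + 2 / 2 ^ J) := by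
    intro x hx
    have h1 : a x 0 ≤ 2 * (a x I / 2 ^ I) := by
      rcases Nat.eq_zero_or_pos I with h0 | h0
      · rw [h0]
        have := (ha x 0).1
        simp only [pow_zero, div_one]
        linarith
      · apply seqB (ha x)
        have h2 : ¬ (1 ≤ 2 ^ (I + L) * u) := Nat.find_min hex (by omega)
        rw [not_le, pow_add, mul_assoc] at h2
        exact (mul_le_mul_of_nonneg_left (hG x hx) (by positivity)).trans h2.le
    have h2 := seqA (ha x) I J (by omega)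
    linarith
  calc ∑ x ∈ G, w x * a x 0
      ≤ ∑ x ∈ G, w x * (2 * (∑ j ∈ Ico I J, a x j ^ 2 / 2 ^ (j + 1) + 2 / 2 ^ J)) :=
        Finset.sum_le_sum fun x hx => mul_le_mul_of_nonneg_left (hpt x hx) (hw x)
    _ ≤ ∑ x, w x * (2 * (∑ j ∈ Ico I J, a x j ^ 2 / 2 ^ (j + 1) + 2 / 2 ^ J)) :=
        Finset.sum_le_sum_of_subset_of_nonneg (Finset.subset_univ _) fun x _ _ =>
          mul_nonneg (hw x) (by positivity)
    _ = ∑ j ∈ Ico I J, (∑ x, w x * a x j ^ 2) / 2 ^ j + 4 / 2 ^ J := by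
        have e : ∀ x, w x * (2 * (∑ j ∈ Ico I J, a x j ^ 2 / 2 ^ (j + 1) + 2 / 2 ^ J)) =
            ∑ j ∈ Ico I J, w x * a x j ^ 2 / 2 ^ j + w x * (4 / 2 ^ J) := by
          intro x
          rw [mul_add, mul_add, Finset.mul_sum, Finset.mul_sum]
          congr 1
          · refine Finset.sum_congr rfl fun j _ => ?_
            field_simp
            ring
          · ring
        simp only [e]
        rw [Finset.sum_add_distrib, ← Finset.sum_mul, hw1, one_mul, Finset.sum_comm]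
        simp only [Finset.sum_div]
    _ ≤ ∑ j ∈ Ico I J, u + 4 * u := by
        refine add_le_add (Finset.sum_le_sum fun j _ => ?_) ?_
        · rw [div_le_iff₀ (by positivity), mul_comm]
          exact h j
        · rw [div_le_iff₀ (by positivity)]
          linarith
    _ ≤ ((L : ℝ) + 5) * u := by
        rw [Finset.sum_const, Nat.card_Ico, nsmul_eq_mul]
        have h3 : ((J - I : ℕ) : ℝ) ≤ ((L + 1 : ℕ) : ℝ) := by
          exact_mod_cast (by omega : J - I ≤ L + 1)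
        push_cast at h3
        nlinarith

end Vale.Agent.P318
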