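import Vale.Agent.P318.Tail
import Vale.Agent.P318.Trunc
import Vale.Agent.P318.Gen
import Vale.Agent.P318.Round
import Vale.Agent.P318.Four
import Vale.Agent.P318.Num

namespace Vale.Agent.P318

open Finset

variable {A : Type} [AddCommGroup A] [Fintype A] [DecidableEq A]

/-- a few group elements control the Lipschitz constant on the support of the capacities -/
def Cover (c : A → A → ℝ) (B : ℝ) : Prop :=
  ∀ u : A → ℝ, (∀ s, 0 ≤ u s) → ∃ (Λ : Finset A) (L : ℕ),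
    256 * ((Λ.card : ℝ) + 1) ^ 2 ≤ 2 ^ L ∧ (L : ℝ) + 5 ≤ 30 * B ∧
      ∀ ρ : A → ℝ, (∀ s, 0 ≤ ρ s) → ρ 0 = 0 → (∀ s, ρ (-s) = ρ s) →
        (∀ s t, ρ (s + t) ≤ ρ s + ρ t) → ∀ M : ℝ, 0 ≤ M → (∀ l ∈ Λ, ρ l ≤ M * u l) →
        ∀ s, c s 0 ≠ 0 → ρ s ≤ 2 * (Λ.card : ℝ) * M * u s

theorem cover_log (c : A → A → ℝ) : Cover c (Real.log (Real.log (Fintype.card A) + 2)) := by
  intro u hu
  obtain ⟨Λ, hΛ, hgen⟩ := gen u hu
  obtain ⟨L, hL, hL'⟩ := num Λ.card _ hΛ
  exact ⟨Λ, L, hL, hL', fun ρ h1 h2 h3 h4 M hM h5 s _ => hgen ρ h1 h2 h3 h4 M hM h5 s⟩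

theorem cover_deg (c : A → A → ℝ) :
    Cover c (Real.log (({s | c s 0 ≠ 0} : Set A).ncard + 2)) := by
  classical
  intro u hu
  set Λ : Finset A := univ.filter fun s => c s 0 ≠ 0 with hΛ
  have hc : ({s | c s 0 ≠ 0} : Set A).ncard = Λ.card := by
    rw [← Set.ncard_coe_finset]
    congr 1
    ext s
    simp [hΛ]
  obtain ⟨L, hL, hL'⟩ := num Λ.card _ le_rfl
  refine ⟨Λ, L, hL, hL'.trans ?_, fun ρ _ _ _ _ M hM h5 s hs => ?_⟩
  · rw [hc]
    have h1 : Real.log 2 ≤ 1 := by linarith [Real.log_two_lt_d9]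
    have h2 : 0 ≤ Real.log 2 := Real.log_nonneg (by norm_num)
    have h3 : (0 : ℝ) ≤ Λ.card := Nat.cast_nonneg _
    have h4 : Real.log ((2 ^ Λ.card : ℕ) : ℝ) = Λ.card * Real.log 2 := by
      rw [Nat.cast_pow, Real.log_pow]; norm_num
    rw [h4]
    refine mul_le_mul_of_nonneg_left (Real.log_le_log (by positivity) ?_) (by norm_num)
    nlinarith
  · have hm : s ∈ Λ := mem_filter.2 ⟨mem_univ _, hs⟩
    have h1 : (1 : ℝ) ≤ Λ.card := by exact_mod_cast card_pos.2 ⟨s, hm⟩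
    have h2 := mul_nonneg hM (hu s)
    nlinarith [h5 s hm]

theorem core2 (c : A → A → ℝ) (hc : ∀ i j, 0 ≤ c i j) (φ : ℝ) (hφ0 : 0 ≤ φ)
    (v : AddChar A ℂ → ℝ) (hv : ∀ χ, 0 ≤ v χ) (hv1 : ∑ χ, v χ = 1)
    (hr : ∀ χ, v χ * (φ * (Fintype.card A : ℝ)) ≤ v χ * (4 * ∑ s, c s 0 * ‖χ s - 1‖))
    (u : A → ℝ) (hu : ∀ s, u s = ∑ χ, v χ * ‖χ s - 1‖ ^ 2)
    (hsub : ∀ s t, u (s + t) ≤ u s + u t) (B : ℝ) (hB : Cover c B) :
    φ * (Fintype.card A : ℝ) ≤ 240 * B * ∑ s, c s 0 * u s := by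
  classical
  have hu0 : ∀ s, 0 ≤ u s := fun s => by
    rw [hu]; exact sum_nonneg fun χ _ => mul_nonneg (hv χ) (sq_nonneg _)
  have hpow : ∀ (j : ℕ) s, u (2 ^ j • s) ≤ 2 ^ j * u s := by
    intro j s
    induction j with
    | zero => simp
    | succ j ih =>
      rw [pow_succ, mul_nsmul', two_nsmul, nsmul_add, pow_succ]
      linarith [hsub (2 ^ j • s) (2 ^ j • s)]
  set a : A → AddChar A ℂ → ℕ → ℝ := fun s χ j => ‖χ s ^ 2 ^ j - 1‖ with ha
  have ha0 : ∀ s χ, a s χ 0 = ‖χ s - 1‖ := fun s χ => by simp [ha]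
  have hD : ∀ s χ, Dbl (a s χ) := fun s χ => dbl_unit _ (χ.norm_apply s)
  have hh : ∀ s j, ∑ χ, v χ * a s χ j ^ 2 ≤ 2 ^ j * u s := by
    intro s j
    refine le_trans (le_of_eq ?_) (hpow j s)
    rw [hu]
    simp only [ha, AddChar.map_nsmul_eq_pow]
  obtain ⟨Λ, L, hL, hL', hgen⟩ := hB u hu0
  set k : ℝ := (Λ.card : ℝ) with hk
  have hk0 : 0 ≤ k := Nat.cast_nonneg _
  set M : ℝ := 128 * (k + 1) with hM
  have hM0 : 0 < M := by positivity
  set G : Finset (AddChar A ℂ) := univ.filter fun χ => ∀ l ∈ Λ, a l χ 0 ≤ M * u l with hG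
  have hbad : ∑ χ ∈ Gᶜ, v χ ≤ 1 / 2 := by
    have h1 : ∑ χ ∈ Gᶜ, v χ ≤ ∑ χ, ∑ l ∈ Λ, if M * u l < a l χ 0 then v χ else 0 := by
      have hnn : ∀ χ l, 0 ≤ (if M * u l < a l χ 0 then v χ else 0) := fun χ l => by
        split_ifs
        · exact hv χ
        · exact le_rfl
      refine le_trans (sum_le_sum fun χ hχ => ?_) (sum_le_univ_sum_of_nonneg fun χ =>
        sum_nonneg fun l _ => hnn χ l)
      rw [mem_compl, hG, mem_filter] at hχ
      push Not at hχ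
      obtain ⟨l, hl, hl'⟩ := hχ (mem_univ _)
      refine le_trans (le_of_eq ?_) (single_le_sum (fun l _ => hnn χ l) hl)
      rw [if_pos hl']
    rw [sum_comm] at h1
    have h2 : ∑ l ∈ Λ, ∑ χ, (if M * u l < a l χ 0 then v χ else 0) ≤ ∑ l ∈ Λ, 64 / M :=
      sum_le_sum fun l _ => by
        rw [← sum_filter]
        exact tail v hv (a l) (hD l) (u l) (hu0 l) (hh l) M hM0
    rw [sum_const, nsmul_eq_mul] at h2
    have h3 : k * (64 / M) ≤ 1 / 2 := by
      rw [hM, ← mul_div_assoc, div_le_div_iff₀ (by positivity) (by positivity)]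
      linarith
    linarith
  have hgood : 1 / 2 ≤ ∑ χ ∈ G, v χ := by
    have := sum_add_sum_compl G v
    linarith
  have hlip : ∀ s, c s 0 ≠ 0 → ∀ χ ∈ G, a s χ 0 ≤ 2 ^ L * u s := by
    intro s hs χ hχ
    have h1 := hgen (fun s => ‖χ s - 1‖) (fun s => norm_nonneg _) (by simp)
      (fun s => by
        rw [AddChar.map_neg_eq_conj, ← RCLike.norm_conj (χ s - 1)]
        simp)
      (fun s t => by
        have e : χ (s + t) - 1 = χ s * (χ t - 1) + (χ s - 1) := by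
          rw [AddChar.map_add_eq_mul]; ring
        rw [e]
        refine (norm_add_le _ _).trans (le_of_eq ?_)
        rw [norm_mul, χ.norm_apply, one_mul, add_comm])
      M hM0.le (fun l hl => by rw [← ha0]; exact (mem_filter.1 hχ).2 l hl) s hs
    rw [ha0]
    refine h1.trans (mul_le_mul_of_nonneg_right (le_trans ?_ hL) (hu0 s))
    rw [hM]
    nlinarith
  have h4 : ∑ χ ∈ G, v χ * (φ * (Fintype.card A : ℝ)) ≤
      4 * (((L : ℝ) + 5) * ∑ s, c s 0 * u s) := by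
    refine (sum_le_sum fun χ _ => hr χ).trans ?_
    have e : ∑ χ ∈ G, v χ * (4 * ∑ s, c s 0 * ‖χ s - 1‖) =
        4 * ∑ s, c s 0 * ∑ χ ∈ G, v χ * a s χ 0 := by
      simp only [ha0, mul_sum]
      rw [sum_comm]
      exact sum_congr rfl fun s _ => sum_congr rfl fun χ _ => by ring
    rw [e, mul_sum _ _ ((L : ℝ) + 5)]
    refine mul_le_mul_of_nonneg_left (sum_le_sum fun s _ => ?_) (by norm_num)
    by_cases hs : c s 0 = 0
    · simp [hs]
    have := trunc v hv hv1 (a s) (hD s) (u s) (hu0 s) (hh s) L G (hlip s hs)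
    calc _ ≤ c s 0 * (((L : ℝ) + 5) * u s) := mul_le_mul_of_nonneg_left this (hc s 0)
      _ = _ := by ring
  rw [← sum_mul] at h4
  have h5 : 0 ≤ ∑ s, c s 0 * u s := sum_nonneg fun s _ => mul_nonneg (hc s 0) (hu0 s)
  have h6 : 0 ≤ φ * (Fintype.card A : ℝ) := by positivity
  have h7 := mul_le_mul_of_nonneg_right hgood h6
  have h8 := mul_le_mul_of_nonneg_right hL' h5
  linarith

theorem core (c : A → A → ℝ) (hc : ∀ i j, 0 ≤ c i j)
    (hinv : ∀ a i j, c (i + a) (j + a) = c i j) (d : A → A → ℝ) (hd : NegType d)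
    (hpos : 0 < ∑ i, ∑ j, d i j) (B : ℝ) (hB : Cover c B) :
    Phi c * ∑ i, ∑ j, d i j ≤ 960 * B * ∑ i, ∑ j, c i j * d i j := by
  classical
  obtain ⟨hφ0, hφ⟩ := phi_spec c hc
  obtain ⟨⟨x, hx⟩, htri⟩ := hd
  obtain ⟨w, hw, hF⟩ := four x
  set D : A → ℝ := fun s => ∑ y, d (y + s) y with hD
  set w' : AddChar A ℂ → ℝ := fun χ => if χ = 0 then 0 else w χ with hw'
  have hw0 : ∀ χ, 0 ≤ w' χ := fun χ => by
    simp only [hw']
    split_ifs
    · exact le_rfl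
    · exact hw χ
  have hDF : ∀ s, D s = ∑ χ, w' χ * ‖χ s - 1‖ ^ 2 := by
    intro s
    simp only [hD, hx, hF]
    refine sum_congr rfl fun χ _ => ?_
    simp only [hw']
    split_ifs with h
    · simp [h]
    · rfl
  have hre : ∀ g : A → A → ℝ, ∑ i, ∑ j, g i j = ∑ s, ∑ y, g (y + s) y := by
    intro g
    rw [sum_comm, sum_comm (f := fun s y => g (y + s) y)]
    exact sum_congr rfl fun y _ => (Equiv.sum_comp (Equiv.addLeft y) fun i => g i y).symm
  have e1 : ∑ i, ∑ j, d i j = ∑ s, D s := hre d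
  have e2 : ∑ i, ∑ j, c i j * d i j = ∑ s, c s 0 * D s := by
    rw [hre]
    refine sum_congr rfl fun s _ => ?_
    rw [hD, mul_sum]
    refine sum_congr rfl fun y _ => ?_
    rw [← hinv y s 0, zero_add, add_comm s y]
  have hsub : ∀ s t, D (s + t) ≤ D s + D t := by
    intro s t
    have h1 : D s = ∑ y, d (y + (s + t)) (y + t) := by
      rw [hD]
      refine ((Equiv.sum_comp (Equiv.addRight t) fun y => d (y + s) y).symm).trans ?_
      refine sum_congr rfl fun y _ => ?_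
      simp only [Equiv.coe_addRight]
      congr 1
      abel
    rw [h1, hD, ← sum_add_distrib]
    exact sum_le_sum fun y _ => htri _ _ _
  set W : ℝ := ∑ χ, w' χ with hW
  have hle : ∑ s, D s ≤ (Fintype.card A : ℝ) * (4 * W) := by
    have : ∀ s, D s ≤ 4 * W := by
      intro s
      rw [hDF, hW, mul_sum]
      refine sum_le_sum fun χ _ => ?_
      have h1 : ‖χ s - 1‖ ≤ 2 := by
        refine (norm_sub_le _ _).trans ?_
        rw [χ.norm_apply, norm_one]; norm_num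
      have h2 : ‖χ s - 1‖ ^ 2 ≤ 4 := by nlinarith [norm_nonneg (χ s - 1)]
      nlinarith [hw0 χ]
    refine (sum_le_sum fun s _ => this s).trans (le_of_eq ?_)
    simp
  have hWn : 0 ≤ W := sum_nonneg fun χ _ => hw0 χ
  have hW0 : 0 < W := by
    refine lt_of_le_of_ne hWn fun h => ?_
    rw [← h] at hle
    rw [e1] at hpos
    linarith
  have key := core2 c hc (Phi c) hφ0 (fun χ => w' χ / W) (fun χ => div_nonneg (hw0 χ) hWn)
    (by rw [← sum_div, ← hW, div_self hW0.ne'])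
    (fun χ => by
      by_cases h : χ = 0
      · simp [hw', h]
      · exact mul_le_mul_of_nonneg_left (round c hc hinv _ hφ0 hφ χ h) (div_nonneg (hw0 χ) hWn))
    (fun s => D s / W)
    (fun s => by
      rw [hDF, sum_div]
      exact sum_congr rfl fun χ _ => by ring)
    (fun s t => by rw [← add_div]; exact div_le_div_of_nonneg_right (hsub s t) hWn) B hB
  have e3 : ∑ s, c s 0 * (D s / W) = (∑ s, c s 0 * D s) / W := by
    rw [sum_div]
    exact sum_congr rfl fun s _ => by ring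
  rw [e3, ← mul_div_assoc, le_div_iff₀ hW0] at key
  rw [e1, e2]
  have h9 := mul_le_mul_of_nonneg_left hle hφ0
  linarith

theorem main0 (h2 : 2 ≤ Fintype.card A) (c : A → A → ℝ) (hc : ∀ i j, 0 ≤ c i j)
    (hinv : ∀ a i j, c (i + a) (j + a) = c i j) (b : ℝ) (hb : 0 ≤ b)
    (hB : Cover c (Real.log (b + 2))) : Phi c ≤ 960 * Real.log (b + 2) * gl c := by
  have hl : 0 < 960 * Real.log (b + 2) := by
    have := Real.log_pos (x := b + 2) (by linarith)
    positivity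
  rw [mul_comm, ← div_le_iff₀ hl]
  obtain ⟨d0, hd0, hs0⟩ := exists_neg h2
  refine le_csInf ⟨_, d0, hd0, hs0, rfl⟩ ?_
  rintro _ ⟨d, hd, hs, rfl⟩
  have h := core c hc hinv d hd (by linarith) _ hB
  rw [div_le_iff₀ hl]
  have e : ∑ i, ∑ j, d i j = 2 := by linarith
  rw [e] at h
  linarith

theorem main (h2 : 2 ≤ Fintype.card A) (c : A → A → ℝ) (hc : ∀ i j, 0 ≤ c i j)
    (hinv : ∀ a i j, c (i + a) (j + a) = c i j) :
    Phi c ≤ 960 * Real.log (Real.log (Fintype.card A) + 2) * gl c ∧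
      Phi c ≤ 960 * Real.log (({s | c s 0 ≠ 0} : Set A).ncard + 2) * gl c :=
  ⟨main0 h2 c hc hinv _ (Real.log_natCast_nonneg _) (cover_log c),
    main0 h2 c hc hinv _ (Nat.cast_nonneg _) (cover_deg c)⟩

end Vale.Agent.P318
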