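import Mathlib

namespace Vale.Agent.P318

open Finset

/-- chord lengths along repeated squaring -/
def Dbl (a : ℕ → ℝ) : Prop :=
  ∀ j, 0 ≤ a j ∧ a j ≤ 2 ∧ a (j + 1) ≤ 2 * a j ∧ 2 * a j - a (j + 1) ≤ a j ^ 3 / 2

theorem dbl_unit (z : ℂ) (hz : ‖z‖ = 1) : Dbl fun j => ‖z ^ 2 ^ j - 1‖ := by
  intro j
  set y := z ^ 2 ^ j with hy
  have hy1 : ‖y‖ = 1 := by rw [hy, norm_pow, hz, one_pow]
  have e : z ^ 2 ^ (j + 1) - 1 = (y - 1) * (y + 1) := by rw [pow_succ, pow_mul, ← hy]; ring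
  have hp := parallelogram_law_with_norm ℂ y 1
  rw [hy1, norm_one] at hp
  have ha := norm_nonneg (y - 1)
  have hb := norm_nonneg (y + 1)
  simp only [e, norm_mul]
  set a := ‖y - 1‖
  set b := ‖y + 1‖
  have ha2 : a ≤ 2 := by nlinarith
  have hb2 : b ≤ 2 := by nlinarith
  have h1 : 2 - b ≤ a ^ 2 / 2 := by nlinarith
  refine ⟨ha, ha2, by nlinarith, ?_⟩
  nlinarith [mul_le_mul_of_nonneg_left h1 ha]

theorem seqA {a : ℕ → ℝ} (h : Dbl a) (I J : ℕ) (hIJ : I ≤ J) :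
    a I / 2 ^ I ≤ ∑ j ∈ Ico I J, a j ^ 2 / 2 ^ (j + 1) + 2 / 2 ^ J := by
  have key : a I / 2 ^ I ≤ ∑ j ∈ Ico I J, a j ^ 2 / 2 ^ (j + 1) + a J / 2 ^ J := by
    induction J, hIJ using Nat.le_induction with
    | base => simp
    | succ J hJ ih =>
      rw [sum_Ico_succ_top hJ]
      obtain ⟨h0, h2, _, h4⟩ := h J
      have h5 : 2 * a J ≤ a J ^ 2 + a (J + 1) := by nlinarith [sq_nonneg (a J)]
      have h6 : a J / 2 ^ J ≤ a J ^ 2 / 2 ^ (J + 1) + a (J + 1) / 2 ^ (J + 1) := by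
        rw [← add_div, div_le_div_iff₀ (by positivity) (by positivity), pow_succ (2 : ℝ) J]
        have : (0 : ℝ) < 2 ^ J := by positivity
        nlinarith
      linarith
  refine key.trans ?_
  gcongr
  exact (h J).2.1

theorem seqB {a : ℕ → ℝ} (h : Dbl a) (I : ℕ) (hI : 2 ^ I * a 0 ≤ 1) :
    a 0 ≤ 2 * (a I / 2 ^ I) := by
  have h0 := (h 0).1
  have h1 : ∀ j, a j ≤ 2 ^ j * a 0 := by
    intro j
    induction j with
    | zero => simp
    | succ j ih => rw [pow_succ]; linarith [(h j).2.2.1]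
  have h2 : ∀ j, 2 ^ j * a 0 - a j ≤ (2 ^ j * a 0) ^ 3 / 12 := by
    intro j
    induction j with
    | zero => simp; positivity
    | succ j ih =>
      have h3 := (h j).2.2.2
      have h4 : a j ^ 3 ≤ (2 ^ j * a 0) ^ 3 := pow_le_pow_left₀ (h j).1 (h1 j) 3
      have e : (2 : ℝ) ^ (j + 1) * a 0 = 2 * (2 ^ j * a 0) := by ring
      rw [e]
      set t := 2 ^ j * a 0
      have : (2 * t) ^ 3 = 8 * t ^ 3 := by ring
      rw [this]
      linarith
  have hp : (0 : ℝ) < 2 ^ I := by positivity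
  have h5 := h2 I
  have ht : 0 ≤ 2 ^ I * a 0 := by positivity
  rw [← mul_div_assoc, le_div_iff₀ hp, mul_comm (a 0)]
  set t := 2 ^ I * a 0
  have : t ^ 3 ≤ t := by nlinarith [mul_nonneg ht ht]
  linarith

end Vale.Agent.P318
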