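import Mathlib

namespace Vale.Agent.P318

open Finset

theorem Sweep_point {V : Type} [Fintype V] [DecidableEq V] (c : V → V → ℝ)
    (φ : ℝ) (hφ : ∀ S : Finset V, φ * ((S.card : ℝ) * ((Fintype.card V : ℝ) - S.card)) ≤
      ∑ i ∈ S, ∑ j ∈ Sᶜ, c i j) (f : V → ℝ) (t : ℝ) :
    0 ≤ ∑ i, ∑ j, (c i j - φ) * (Set.Ico (f j) (f i)).indicator (fun _ => (1 : ℝ)) t := by
  classical
  obtain ⟨S, hS⟩ : ∃ S : Finset V, ∀ i, i ∈ S ↔ t < f i :=
    ⟨univ.filter fun i => t < f i, by simp⟩
  have h1 : ∀ i j, (c i j - φ) * (Set.Ico (f j) (f i)).indicator (fun _ => (1 : ℝ)) t =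
      if i ∈ S then (if j ∈ Sᶜ then c i j - φ else 0) else 0 := by
    intro i j
    by_cases hi : i ∈ S
    · by_cases hj : j ∈ Sᶜ
      · have hj' : f j ≤ t := not_lt.1 fun h => (Finset.mem_compl.1 hj) ((hS j).2 h)
        rw [if_pos hi, if_pos hj, Set.indicator_of_mem (show t ∈ Set.Ico (f j) (f i) from
          ⟨hj', (hS i).1 hi⟩), mul_one]
      · have hj' : t < f j := (hS j).1 (by simpa using hj)
        rw [if_pos hi, if_neg hj, Set.indicator_of_notMem (fun h => absurd h.1 (not_le.2 hj')),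
          mul_zero]
    · rw [if_neg hi, Set.indicator_of_notMem (fun h => hi ((hS i).2 h.2)), mul_zero]
  have h2 : ∑ i, ∑ j, (c i j - φ) * (Set.Ico (f j) (f i)).indicator (fun _ => (1 : ℝ)) t =
      ∑ i ∈ S, ∑ j ∈ Sᶜ, (c i j - φ) := by
    simp only [h1]
    rw [← Finset.sum_filter_add_sum_filter_not univ (fun i => i ∈ S)]
    have e1 : univ.filter (fun i => i ∈ S) = S := by ext; simp
    rw [e1, Finset.sum_eq_zero (s := univ.filter fun i => ¬ i ∈ S), add_zero]
    · refine Finset.sum_congr rfl fun i hi => ?_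
      simp only [if_pos hi]
      rw [← Finset.sum_filter]
      congr 1
      ext; simp
    · intro i hi
      have hi' : i ∉ S := (Finset.mem_filter.1 hi).2
      simp only [if_neg hi', Finset.sum_const_zero]
  rw [h2]
  simp only [Finset.sum_sub_distrib, Finset.sum_const, nsmul_eq_mul, Finset.card_compl]
  rw [Nat.cast_sub (Finset.card_le_univ S)]
  have := hφ S
  linarith

theorem sweep {V : Type} [Fintype V] [DecidableEq V] (c : V → V → ℝ) (hc : ∀ i j, 0 ≤ c i j)
    (φ : ℝ) (hφ : ∀ S : Finset V, φ * ((S.card : ℝ) * ((Fintype.card V : ℝ) - S.card)) ≤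
      ∑ i ∈ S, ∑ j ∈ Sᶜ, c i j) (f : V → ℝ) :
    φ * ∑ i, ∑ j, |f i - f j| ≤ 2 * ∑ i, ∑ j, c i j * |f i - f j| := by
  have hint : ∀ i j, MeasureTheory.Integrable
      (fun t => (c i j - φ) * (Set.Ico (f j) (f i)).indicator (fun _ => (1 : ℝ)) t) := by
    intro i j
    refine MeasureTheory.Integrable.const_mul ?_ _
    rw [MeasureTheory.integrable_indicator_iff measurableSet_Ico]
    exact MeasureTheory.integrableOn_const (by simp)
  have hval : ∀ i j, ∫ t, (c i j - φ) * (Set.Ico (f j) (f i)).indicator (fun _ => (1 : ℝ)) t =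
      (c i j - φ) * max (f i - f j) 0 := by
    intro i j
    rw [MeasureTheory.integral_const_mul, MeasureTheory.integral_indicator measurableSet_Ico]
    simp [Real.volume_real_Ico]
  have h0 : 0 ≤ ∫ t, ∑ i, ∑ j,
      (c i j - φ) * (Set.Ico (f j) (f i)).indicator (fun _ => (1 : ℝ)) t :=
    MeasureTheory.integral_nonneg fun t => Sweep_point c φ hφ f t
  rw [MeasureTheory.integral_finset_sum _
    (fun i _ => MeasureTheory.integrable_finset_sum _ fun j _ => hint i j)] at h0
  simp only [MeasureTheory.integral_finset_sum _ (fun j _ => hint _ j), hval] at h0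
  have h1 : ∑ i, ∑ j, |f i - f j| = 2 * ∑ i, ∑ j, max (f i - f j) 0 := by
    have e : ∀ i j, |f i - f j| = max (f i - f j) 0 + max (f j - f i) 0 := by
      intro i j
      rcases le_total (f i) (f j) with h | h
      · rw [abs_of_nonpos (by linarith), max_eq_right (by linarith), max_eq_left (by linarith)]
        ring
      · rw [abs_of_nonneg (by linarith), max_eq_left (by linarith), max_eq_right (by linarith)]
        ring
    simp only [e, Finset.sum_add_distrib]
    rw [Finset.sum_comm (f := fun i j => max (f j - f i) 0)]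
    ring
  have h2 : ∑ i, ∑ j, c i j * max (f i - f j) 0 ≤ ∑ i, ∑ j, c i j * |f i - f j| :=
    Finset.sum_le_sum fun i _ => Finset.sum_le_sum fun j _ =>
      mul_le_mul_of_nonneg_left (max_le (le_abs_self _) (abs_nonneg _)) (hc i j)
  simp only [sub_mul, Finset.sum_sub_distrib, ← Finset.mul_sum] at h0
  rw [h1]
  linarith

end Vale.Agent.P318
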