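import Vale.Agent.P318.Seq

namespace Vale.Agent.P318

open Finset

lemma tail_pt {a : ℕ → ℝ} (ha : Dbl a) (I : ℕ) (hI : 1 / 2 < 2 ^ I * a 0) :
    1 ≤ 16 * ∑ j ∈ range (I + 1), a j ^ 2 := by
  classical
  have hex : ∃ j : ℕ, 1 / 2 < 2 ^ j * a 0 := ⟨I, hI⟩
  have h1 := Nat.find_spec hex
  have h2 : Nat.find hex ≤ I := Nat.find_min' hex hI
  have h3 : 1 / 4 < a (Nat.find hex) := by
    rcases hj : Nat.find hex with _ | j
    · rw [hj] at h1
      simp only [pow_zero, one_mul] at h1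
      linarith
    · have h4 := Nat.find_min hex (m := j) (by omega)
      rw [hj] at h1
      have h5 := seqB ha (j + 1) (by rw [pow_succ]; linarith [not_lt.1 h4])
      have h6 : (0 : ℝ) < 2 ^ (j + 1) := by positivity
      have h7 : 2 ^ (j + 1) * a 0 ≤ 2 * a (j + 1) := by
        calc 2 ^ (j + 1) * a 0 ≤ 2 ^ (j + 1) * (2 * (a (j + 1) / 2 ^ (j + 1))) :=
              mul_le_mul_of_nonneg_left h5 h6.le
          _ = 2 * a (j + 1) := by field_simp
      linarith
  have h8 : a (Nat.find hex) ^ 2 ≤ ∑ j ∈ range (I + 1), a j ^ 2 :=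
    single_le_sum (f := fun j => a j ^ 2) (fun j _ => sq_nonneg _) (mem_range.2 (by omega))
  nlinarith

lemma tail_geom (I : ℕ) : ∑ j ∈ range (I + 1), (2 : ℝ) ^ j ≤ 2 * 2 ^ I := by
  induction I with
  | zero => simp
  | succ I ih => rw [sum_range_succ, pow_succ]; linarith

theorem tail {X : Type} [Fintype X] (w : X → ℝ) (hw : ∀ x, 0 ≤ w x)
    (a : X → ℕ → ℝ) (ha : ∀ x, Dbl (a x)) (u : ℝ) (hu : 0 ≤ u)
    (h : ∀ j, ∑ x, w x * a x j ^ 2 ≤ 2 ^ j * u) (M : ℝ) (hM : 0 < M) :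
    ∑ x ∈ univ.filter (fun x => M * u < a x 0), w x ≤ 64 / M := by
  classical
  rcases hu.eq_or_lt with rfl | hu0
  · have h0 := h 0
    rw [mul_zero] at h0
    have h1 : ∀ x, w x * a x 0 ^ 2 = 0 := fun x =>
      le_antisymm ((single_le_sum (f := fun x => w x * a x 0 ^ 2)
        (fun x _ => mul_nonneg (hw x) (sq_nonneg _)) (mem_univ x)).trans h0)
        (mul_nonneg (hw x) (sq_nonneg _))
    rw [sum_eq_zero]
    · positivity
    · intro x hx
      have h2 := (mem_filter.1 hx).2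
      rw [mul_zero] at h2
      exact (mul_eq_zero.1 (h1 x)).resolve_right (by positivity)
  have ht : 0 < M * u := mul_pos hM hu0
  by_cases h2 : 2 ≤ M * u
  · rw [filter_false_of_mem fun x _ => not_lt.2 ((ha x 0).2.1.trans h2), sum_empty]
    positivity
  have hex : ∃ I : ℕ, 1 / 2 ≤ 2 ^ I * (M * u) := by
    obtain ⟨I, hI⟩ := pow_unbounded_of_one_lt (1 / 2 / (M * u)) (one_lt_two (α := ℝ))
    exact ⟨I, ((div_lt_iff₀ ht).1 hI).le⟩
  obtain ⟨I, hI1, hI2⟩ : ∃ I : ℕ, 1 / 2 ≤ 2 ^ I * (M * u) ∧ 2 ^ I * (M * u) ≤ 2 := by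
    refine ⟨Nat.find hex, Nat.find_spec hex, ?_⟩
    rcases hj : Nat.find hex with _ | j
    · rw [pow_zero, one_mul]; linarith [not_le.1 h2]
    · have h4 := Nat.find_min hex (m := j) (by omega)
      rw [pow_succ]; linarith [not_le.1 h4]
  calc ∑ x ∈ univ.filter (fun x => M * u < a x 0), w x
      ≤ ∑ x ∈ univ.filter (fun x => M * u < a x 0),
          w x * (16 * ∑ j ∈ range (I + 1), a x j ^ 2) := by
        refine sum_le_sum fun x hx => le_mul_of_one_le_right (hw x) (tail_pt (ha x) I ?_)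
        exact hI1.trans_lt (mul_lt_mul_of_pos_left (mem_filter.1 hx).2 (by positivity))
    _ ≤ ∑ x, w x * (16 * ∑ j ∈ range (I + 1), a x j ^ 2) :=
        sum_le_sum_of_subset_of_nonneg (filter_subset _ _) fun x _ _ =>
          mul_nonneg (hw x) (by positivity)
    _ = 16 * ∑ j ∈ range (I + 1), ∑ x, w x * a x j ^ 2 := by
        rw [sum_comm, mul_sum]
        refine sum_congr rfl fun x _ => ?_
        rw [← mul_sum]; ring
    _ ≤ 16 * ∑ j ∈ range (I + 1), 2 ^ j * u :=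
        mul_le_mul_of_nonneg_left (sum_le_sum fun j _ => h j) (by norm_num)
    _ ≤ 16 * (2 * 2 ^ I * u) := by
        rw [← sum_mul]
        exact mul_le_mul_of_nonneg_left (mul_le_mul_of_nonneg_right (tail_geom I) hu) (by norm_num)
    _ ≤ 64 / M := by
        rw [le_div_iff₀ hM]
        nlinarith

end Vale.Agent.P318
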